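import Vale.Agent.P297.H637.Z2.Fam6
import Vale.Agent.P297.H581.Z2.Tan

/-!
The family of the two-sections of the double planes through a node: one explicit direction.
The point `(p, r, s)` of the conic moves in the direction `(1, -1)`; the difference quotients of
the coordinates `(Δ, ν)` are given by a natural formula, and at the zeros of `Δ` on the special
member the first order does not vanish.
-/

set_option linter.unusedSectionVars false
set_option linter.unusedVariables false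

open Polynomial

namespace Vale.Agent.P297.Z2

open Vale.Agent.P297 Vale.Agent.P297.Gen Vale.Agent.P297.H72 Vale.Agent.P297.H637
open Vale.Agent.P297.H160.Z2Irr Vale.Agent.P297.H581.Z2 Vale.Agent.P297.H927

namespace Dat

variable {R : Type*} [CommRing R] (D : Dat R)

/-- The difference quotient of the cubic in the direction `(p', r', s')`. -/
def GF (l T δ p r s p' r' s' : R) : R :=
  -(2 * ((r + T * r') ^ 2 * (((D.a - l * D.U) * p' + (D.c - l * D.V) * r') - s') +
    (2 * r * r' + T * r' ^ 2) * (D.kh l δ p r - s))) -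
  2 * ((p + T * p') ^ 2 * (((D.a - l * D.U) * p' + (D.c - l * D.V) * r') + s') +
    (2 * p * p' + T * p' ^ 2) * (D.kh l δ p r + s)) +
  δ * ((2 * s * s' + T * s' ^ 2) -
    (2 * D.kh l δ p r * ((D.a - l * D.U) * p' + (D.c - l * D.V) * r') +
      T * ((D.a - l * D.U) * p' + (D.c - l * D.V) * r') ^ 2)) -
  8 * D.A * D.B * δ * (p' * r + p * r' + T * p' * r') -
  4 * l * ((p' * r + p * r' + T * p' * r') *
    (D.Eh δ p + D.Fh δ r + T * (D.V * p' + D.U * r')) +
    (p * r - D.A * D.B * δ ^ 2) * (D.V * p' + D.U * r')) +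
  4 * (l ^ 2 - l) * δ * (D.V * p' * D.Fh δ r + D.Eh δ p * (D.U * r') +
    T * (D.V * p') * (D.U * r'))

theorem CF_add (l T δ p r s p' r' s' : R) :
    D.CF l δ (p + T * p') (r + T * r') (s + T * s') =
      D.CF l δ p r s + T * D.GF l T δ p r s p' r' s' := by
  unfold CF GF kh Eh Fh
  ring

/-- The derivative of the cubic in terms of the derivative of the branch quartic. -/
theorem GF_zero (l δ p r s p' r' s' : R) :
    D.GF l 0 δ (δ * p) (δ * r) (δ * s) p' r' s' =
      δ ^ 2 * ((-(4 * p * (-(p ^ 2 - r ^ 2) + s)) - Bp D l p r) * p' +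
        (4 * r * (-(p ^ 2 - r ^ 2) + s) - Br D l p r) * r' +
        2 * (-(p ^ 2 - r ^ 2) + s) * s') := by
  unfold GF Bp Br kh Eh Fh K J0 J1 N E F
  ring

end Dat

section par

variable {R : Type*} [CommRing R] [Algebra ℂ R] (P : Par)

/-- the difference quotient of the cubic at `y` -/
def tGb (l y T δ p r s p' r' s' : R) : R := (dat P y).GF l T δ p r s p' r' s'

variable {R' : Type*} [CommRing R'] [Algebra ℂ R'] (f : R →ₐ[ℂ] R')

theorem map_tGb (l y T δ p r s p' r' s' : R) : f (tGb P l y T δ p r s p' r' s') =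
    tGb P (f l) (f y) (f T) (f δ) (f p) (f r) (f s) (f p') (f r') (f s') := by
  unfold tGb
  rw [← map_dat]
  simp only [Dat.GF, Dat.kh, Dat.Eh, Dat.Fh, Dat.map, map_add, map_sub, map_neg, map_mul, map_pow,
    map_ofNat]

end par

namespace FP

section ring

variable {R : Type} [CommRing R] (D : FP R)

/-- **The move**: `s` moves by `T`, the point `(p, r)` in the direction `(1, -1)`, and `c0` by
`θ T`. -/
def mv (κ T θ : R) : FP R :=
  ⟨D.l, D.al, D.be, D.ps + (2 * D.ss * T + T ^ 2) * κ, D.rs - (2 * D.ss * T + T ^ 2) * κ,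
    D.ss + T, D.k1, D.k2, D.a, D.b, D.b1, D.c0 + θ * T, D.d⟩

/-- the difference quotient of `δ p` -/
def pd (κ T u v : R) : R := (2 * D.ss + T) * κ * D.dl u v - 2 * D.k1 * u * v

/-- the difference quotient of `δ r` -/
def rd (κ T u v : R) : R := -((2 * D.ss + T) * κ * D.dl u v) - 2 * D.k2 * u * v

/-- the difference quotient of `S1` -/
def sd (κ T θ u v Y : R) : R := -(2 * D.b1 * u * v) + θ * D.dl u v -
  D.d * (u ^ 2 + D.b * v ^ 2) - (u ^ 2 + D.b * v ^ 2) * Y +
  2 * (D.al * D.pd κ T u v + D.be * D.rd κ T u v) * Y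

variable (κ T θ : R)

theorem dl_mv (u v : R) : (D.mv κ T θ).dl u v = D.dl u v := rfl

theorem pt_mv (u v : R) : (D.mv κ T θ).pt u v = D.pt u v + T * D.pd κ T u v := by
  simp only [pt, pd, mv, dl, ht]
  ring

theorem rt_mv (u v : R) : (D.mv κ T θ).rt u v = D.rt u v + T * D.rd κ T u v := by
  simp only [rt, rd, mv, dl, ht]
  ring

theorem S1_mv (u v Y : R) : (D.mv κ T θ).S1 u v Y = D.S1 u v Y + T * D.sd κ T θ u v Y := by
  simp only [S1, sd, pd, rd, wt, st, pt, rt, mv, dl, ht]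
  ring

end ring

section form

variable {R : Type} [CommRing R] [Algebra ℂ R] (P : Par) (D : FP R) (κ T θ : R)

/-- the difference quotient of `hY` -/
def hK (u v Y : R) : R := tGb P D.l Y T (D.dl u v) (D.pt u v + D.al * D.dl u v * Y)
  (D.rt u v - D.be * D.dl u v * Y) (D.S1 u v Y) (D.pd κ T u v) (D.rd κ T u v) (D.sd κ T θ u v Y)

theorem hY_mv (u v Y : R) :
    (D.mv κ T θ).hY P u v Y = D.hY P u v Y + T * D.hK P κ T θ u v Y := by
  unfold hY hK
  rw [pt_mv, rt_mv, S1_mv, dl_mv]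
  have e1 : D.pt u v + T * D.pd κ T u v + (D.mv κ T θ).al * D.dl u v * Y =
      (D.pt u v + D.al * D.dl u v * Y) + T * D.pd κ T u v := by
    change D.pt u v + T * D.pd κ T u v + D.al * D.dl u v * Y = _
    ring
  have e2 : D.rt u v + T * D.rd κ T u v - (D.mv κ T θ).be * D.dl u v * Y =
      (D.rt u v - D.be * D.dl u v * Y) + T * D.rd κ T u v := by
    change D.rt u v + T * D.rd κ T u v - D.be * D.dl u v * Y = _
    ring
  rw [e1, e2]
  exact Dat.CF_add _ _ _ _ _ _ _ _ _ _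

variable {R' : Type} [CommRing R'] [Algebra ℂ R'] (f : R →ₐ[ℂ] R')

theorem map_mv : (D.mv κ T θ).map f = (D.map f).mv (f κ) (f T) (f θ) := by
  simp only [FP.map, mv, map_add, map_sub, map_mul, map_pow, map_ofNat]

theorem map_hK (u v Y : R) : f (D.hK P κ T θ u v Y) =
    (D.map f).hK P (f κ) (f T) (f θ) (f u) (f v) (f Y) := by
  unfold hK
  rw [map_tGb]
  simp only [FP.map, dl, ht, pt, rt, st, wt, S1, pd, rd, sd, map_add, map_sub, map_neg, map_mul,
    map_pow, map_ofNat]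

/-- the difference quotient of `HP` -/
noncomputable def KP (u v : R) : R[X] := (D.map C).hK P (C κ) (C T) (C θ) (C u) (C v) X

theorem HP_mv (u v : R) : (D.mv κ T θ).HP P u v = D.HP P u v + C T * D.KP P κ T θ u v := by
  unfold HP KP
  have h1 : (D.mv κ T θ).map (C : R → R[X]) = (D.map C).mv (C κ) (C T) (C θ) := by
    simp only [FP.map, mv, C_add, C_sub, C_mul, C_pow, C_ofNat]
  rw [h1, hY_mv]

theorem map_KP (u v : R) : (D.KP P κ T θ u v).map (f : R →+* R') =
    (D.map f).KP P (f κ) (f T) (f θ) (f u) (f v) := by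
  unfold KP
  rw [← mp_apply, map_hK, map_C_map, mp_apply, mp_apply, mp_apply, mp_apply, mp_apply, mp_apply,
    map_C, map_C, map_C, map_C, map_C, map_X]
  rfl

/-- the difference quotient of `dlt` -/
noncomputable def dK (u v : R) : R := (D.KP P κ T θ u v).coeff 1

/-- the difference quotient of `nu` -/
noncomputable def nK (u v : R) : R := -(D.KP P κ T θ u v).coeff 0

theorem dlt_mv (u v : R) : (D.mv κ T θ).dlt P u v = D.dlt P u v + T * D.dK P κ T θ u v := by
  unfold dlt dK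
  rw [HP_mv, coeff_add, coeff_C_mul]

theorem nu_mv (u v : R) : (D.mv κ T θ).nu P u v = D.nu P u v + T * D.nK P κ T θ u v := by
  unfold nu nK
  rw [HP_mv, coeff_add, coeff_C_mul]
  ring

theorem map_dK (u v : R) : f (D.dK P κ T θ u v) =
    (D.map f).dK P (f κ) (f T) (f θ) (f u) (f v) := by
  unfold dK
  rw [← map_KP, coeff_map]
  rfl

theorem map_nK (u v : R) : f (D.nK P κ T θ u v) =
    (D.map f).nK P (f κ) (f T) (f θ) (f u) (f v) := by
  unfold nK
  rw [← map_KP, coeff_map, map_neg]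
  rfl

theorem eval_KP (u v Y : R) : (D.KP P κ T θ u v).eval Y = D.hK P κ T θ u v Y := by
  unfold KP
  have h1 := map_hK P (D.map C) (C κ) (C T) (C θ) ((aeval Y : R[X] →ₐ[R] R).restrictScalars ℂ)
    (C u) (C v) X
  have h2 : ∀ F : R[X], ((aeval Y : R[X] →ₐ[R] R).restrictScalars ℂ) F = F.eval Y := fun F => by
    rw [AlgHom.restrictScalars_apply]
    exact congrFun (coe_aeval_eq_eval Y) F
  simp only [h2, eval_C, eval_X, FP.map] at h1
  exact h1

end form

section field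

variable {L : Type} [Field L] [Algebra ℂ L] {P : Par} {D : FP L} {κ : L}

/-- **The move preserves the relations between the parameters.** -/
theorem Base.mv (hb : D.Base P)
    (hκ : 4 * ((ntd P D.l D.al D.be).kp - (ntd P D.l D.al D.be).kr) * κ = 1) (T θ : L) :
    (D.mv κ T θ).Base P where
  node := hb.node
  hs := by
    have h1 := hb.hs
    change (D.ss + T) ^ 2 = (ntd P D.l D.al D.be).B2 (D.ps + (2 * D.ss * T + T ^ 2) * κ)
      (D.rs - (2 * D.ss * T + T ^ 2) * κ)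
    generalize ntd P D.l D.al D.be = d at *
    unfold TD.B2 TD.W at *
    linear_combination h1 - (2 * D.ss * T + T ^ 2) * hκ
  ha := by
    have h1 := hb.ha
    change D.a = 2 * D.l ^ 2 * (D.ps + (2 * D.ss * T + T ^ 2) * κ -
      (ntd P D.l D.al D.be).pn + (D.rs - (2 * D.ss * T + T ^ 2) * κ -
        (ntd P D.l D.al D.be).rn)) * (D.k1 + D.k2) + 8 * D.al * D.be *
      (D.ps + (2 * D.ss * T + T ^ 2) * κ + (D.rs - (2 * D.ss * T + T ^ 2) * κ)) *
        (D.k1 + D.k2) + 4 * (ntd P D.l D.al D.be).kp * D.k1 +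
        4 * (ntd P D.l D.al D.be).kr * D.k2
    rw [h1]
    ring
  hb := hb.hb

/-- The difference quotient has degree one in `Y`. -/
theorem KP_natDegree (hb : D.Base P)
    (hκ : 4 * ((ntd P D.l D.al D.be).kp - (ntd P D.l D.al D.be).kr) * κ = 1)
    {u v : L} (hδ : D.dl u v ≠ 0) (hdeg : ∀ D' : FP L, D'.Base P → D'.dl u v ≠ 0 →
      (D'.HP P u v).natDegree ≤ 1) (T θ : L) : (D.KP P κ T θ u v).natDegree ≤ 1 := by
  have := charZero_of_C L
  rw [natDegree_le_iff_coeff_eq_zero]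
  intro j hj
  have h0 : ∀ D' : FP L, D'.Base P → D'.dl u v ≠ 0 → (D'.HP P u v).coeff j = 0 :=
    fun D' hD' hd => coeff_eq_zero_of_natDegree_lt (lt_of_le_of_lt (hdeg D' hD' hd) hj)
  let q : L[X] := ((D.map C).KP P (C κ) X (C θ) (C u) (C v)).coeff j
  have hq : ∀ t, q.eval t = (D.KP P κ t θ u v).coeff j := by
    intro t
    have h1 := map_KP P (D.map C) (C κ) X (C θ)
      ((aeval t : L[X] →ₐ[L] L).restrictScalars ℂ) (C u) (C v)
    have h2 : ∀ F : L[X], ((aeval t : L[X] →ₐ[L] L).restrictScalars ℂ) F = F.eval t := fun F => by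
      rw [AlgHom.restrictScalars_apply]
      exact congrFun (coe_aeval_eq_eval t) F
    have h3 := congrArg (fun F => F.coeff j) h1
    simp only [coeff_map, h2, eval_C, eval_X, FP.map, RingHom.coe_coe] at h3
    exact h3
  have h1 : ∀ t, t ≠ 0 → q.eval t = 0 := by
    intro t ht
    have h2 := congrArg (fun F => F.coeff j) (HP_mv P D κ t θ u v)
    simp only [coeff_add, coeff_C_mul] at h2
    rw [h0 _ (hb.mv hκ t θ) hδ, h0 _ hb hδ, zero_add] at h2
    rw [hq]
    exact (mul_eq_zero.1 h2.symm).resolve_left ht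
  have h2 : q = 0 := by
    have h3 : X * q = 0 := by
      apply Polynomial.funext
      intro t
      rw [eval_mul, eval_X, eval_zero]
      by_cases ht : t = 0
      · rw [ht, zero_mul]
      · rw [h1 t ht, mul_zero]
    exact (mul_eq_zero.1 h3).resolve_left X_ne_zero
  rw [← hq, h2, eval_zero]

/-- **The first order at `Y = y`.** -/
theorem mul_dK_sub (hb : D.Base P)
    (hκ : 4 * ((ntd P D.l D.al D.be).kp - (ntd P D.l D.al D.be).kr) * κ = 1)
    {u v : L} (hδ : D.dl u v ≠ 0) (hdeg : ∀ D' : FP L, D'.Base P → D'.dl u v ≠ 0 →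
      (D'.HP P u v).natDegree ≤ 1) (T θ y : L) :
    y * D.dK P κ T θ u v - D.nK P κ T θ u v = D.hK P κ T θ u v y := by
  have h1 := KP_natDegree hb hκ hδ hdeg T θ
  have h2 := congrArg (fun F => eval y F) (eq_X_add_C_of_natDegree_le_one h1)
  simp only [eval_add, eval_mul, eval_C, eval_X] at h2
  rw [eval_KP] at h2
  rw [h2]
  unfold dK nK
  ring

/-- The member of the family whose lines pass through the points of a line over `y`. -/
structure Sp (D : FP L) (y p0 p1 r0 r1 s0 s1 s2 h : L) : Prop where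
  ps : D.ps = p0 - D.al * y + p1 * h
  rs : D.rs = r0 + D.be * y + r1 * h
  k1 : D.k1 = p1
  k2 : D.k2 = r1
  b1 : D.b1 = s1 + 2 * s2 * h + 2 * (D.ps * p1 - D.rs * r1)
  c0 : D.c0 = s0 + s1 * h + s2 * h ^ 2 + D.ps ^ 2 - D.rs ^ 2
  d : D.d = -y
  s2 : s2 = -(p1 ^ 2 - r1 ^ 2)

variable {y p0 p1 r0 r1 s0 s1 s2 h : L}

/-- The first order at the special member. -/
theorem Sp.hK_eq (S : D.Sp y p0 p1 r0 r1 s0 s1 s2 h) {u z : L}
    (hz : D.dl u 1 * z = h * D.dl u 1 + D.ht u 1) (θ : L) :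
    D.hK P κ 0 θ u 1 y = D.dl u 1 ^ 2 *
      ((-(4 * (p0 + p1 * z) * (s0 + s1 * z + s2 * z ^ 2)) -
          Bp (dat P y) D.l (p0 + p1 * z) (r0 + r1 * z)) * D.pd κ 0 u 1 +
        (4 * (r0 + r1 * z) * (s0 + s1 * z + s2 * z ^ 2) -
          Br (dat P y) D.l (p0 + p1 * z) (r0 + r1 * z)) * D.rd κ 0 u 1 +
        2 * (s0 + s1 * z + s2 * z ^ 2) * D.sd κ 0 θ u 1 y) := by
  have hht : D.ht u 1 = D.dl u 1 * (z - h) := by linear_combination -hz
  have e1 : D.pt u 1 + D.al * D.dl u 1 * y = D.dl u 1 * (p0 + p1 * z) := by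
    unfold pt
    rw [hht, S.ps, S.k1]
    ring
  have e2 : D.rt u 1 - D.be * D.dl u 1 * y = D.dl u 1 * (r0 + r1 * z) := by
    unfold rt
    rw [hht, S.rs, S.k2]
    ring
  have e3 : D.S1 u 1 y = D.dl u 1 * ((s0 + s1 * z + s2 * z ^ 2) +
      ((p0 + p1 * z) ^ 2 - (r0 + r1 * z) ^ 2)) := by
    have h3 := S.s2
    unfold S1 wt pt rt
    rw [hht, S.b1, S.c0, S.d, S.ps, S.rs, S.k1, S.k2]
    linear_combination (-(D.dl u 1 * (z - h) ^ 2)) * h3
  have h4 : -((p0 + p1 * z) ^ 2 - (r0 + r1 * z) ^ 2) + ((s0 + s1 * z + s2 * z ^ 2) +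
      ((p0 + p1 * z) ^ 2 - (r0 + r1 * z) ^ 2)) = s0 + s1 * z + s2 * z ^ 2 := by ring
  unfold hK tGb
  rw [e1, e2, e3, Dat.GF_zero, h4]

/-- **The first order at the zeros of `δ ≠ 0`**, in terms of the value `q` of the line. -/
theorem Sp.hK_add (S : D.Sp y p0 p1 r0 r1 s0 s1 s2 h) {u : L} (hδ : D.dl u 1 ≠ 0) (θ : L) :
    D.hK P κ 0 θ u 1 y = D.hK P κ 0 0 u 1 y + 2 * D.dl u 1 ^ 3 *
      (s0 + s1 * (h + D.ht u 1 / D.dl u 1) + s2 * (h + D.ht u 1 / D.dl u 1) ^ 2) * θ := by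
  have hz : D.dl u 1 * (h + D.ht u 1 / D.dl u 1) = h * D.dl u 1 + D.ht u 1 := by
    field_simp
  rw [S.hK_eq hz θ, S.hK_eq hz 0]
  generalize h + D.ht u 1 / D.dl u 1 = z at *
  unfold sd
  ring

/-- **The first order at the points of contact.** -/
theorem Sp.hK_contact (S : D.Sp y p0 p1 r0 r1 s0 s1 s2 h)
    (L' : YLine P D.l y p0 p1 r0 r1 s0 s1 s2) {u : L} (hδ : D.dl u 1 ≠ 0)
    (hq : s0 + s1 * (h + D.ht u 1 / D.dl u 1) + s2 * (h + D.ht u 1 / D.dl u 1) ^ 2 = 0) (θ : L) :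
    D.hK P κ 0 θ u 1 y = -(2 * D.ss * κ * D.dl u 1 ^ 3 *
      (Bp (dat P y) D.l (p0 + p1 * (h + D.ht u 1 / D.dl u 1))
          (r0 + r1 * (h + D.ht u 1 / D.dl u 1)) -
        Br (dat P y) D.l (p0 + p1 * (h + D.ht u 1 / D.dl u 1))
          (r0 + r1 * (h + D.ht u 1 / D.dl u 1)))) := by
  have hz : D.dl u 1 * (h + D.ht u 1 / D.dl u 1) = h * D.dl u 1 + D.ht u 1 := by
    field_simp
  have h1 := yline_der L' (h + D.ht u 1 / D.dl u 1)
  rw [S.hK_eq hz θ]
  rw [hq] at h1 ⊢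
  generalize h + D.ht u 1 / D.dl u 1 = z at *
  unfold pd rd
  rw [S.k1, S.k2]
  linear_combination 2 * u * D.dl u 1 ^ 2 * h1

end field

section closed

variable {N : Type} [Field N] [Algebra ℂ N] [IsAlgClosed N] {P : Par} {D : FP N} {κ : N}

variable {y p0 p1 r0 r1 s0 s1 s2 h : N}

/-- **The direction**: for a suitable `θ` the first order does not vanish at any of the given
points of the special member. -/
theorem Sp.exists_dir (h0 : P.P0 ≠ 0) (h2 : P.P2 ≠ 0) (hQ : P.Q0 ≠ P.Q1) (huv : P.u ≠ P.v)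
    (hi : AlgebraicIndependent ℂ ![D.l, y]) (S : D.Sp y p0 p1 r0 r1 s0 s1 s2 h)
    (L : YLine P D.l y p0 p1 r0 r1 s0 s1 s2) (hκ : κ ≠ 0) (hss : D.ss ≠ 0) {ι : Type} [Finite ι]
    (β : ι → N) (hδ : ∀ i, D.dl (β i) 1 ≠ 0) :
    ∃ θ : N, ∀ i, D.hK P κ 0 θ (β i) 1 y ≠ 0 := by
  have := charZero_of_C N
  obtain ⟨θ, -, hθ⟩ := Vale.Agent.P297.H581.Z2.exists_dir
    (fun i => D.hK P κ 0 0 (β i) 1 y) (fun i => 2 * D.dl (β i) 1 ^ 3 *
      (s0 + s1 * (h + D.ht (β i) 1 / D.dl (β i) 1) +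
        s2 * (h + D.ht (β i) 1 / D.dl (β i) 1) ^ 2)) (by
      intro i
      by_cases hq : s0 + s1 * (h + D.ht (β i) 1 / D.dl (β i) 1) +
        s2 * (h + D.ht (β i) 1 / D.dl (β i) 1) ^ 2 = 0
      · left
        rw [S.hK_contact L (hδ i) hq 0]
        have h3 := yline_tan_one h0 h2 hQ huv hi L hq
        exact neg_ne_zero.2 (mul_ne_zero (mul_ne_zero (mul_ne_zero (mul_ne_zero two_ne_zero hss)
          hκ) (pow_ne_zero 3 (hδ i))) h3)
      · right
        exact mul_ne_zero (mul_ne_zero two_ne_zero (pow_ne_zero 3 (hδ i))) hq)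
  refine ⟨θ, fun i => ?_⟩
  rw [S.hK_add (hδ i) θ]
  intro h4
  apply hθ i
  linear_combination h4

end closed

end FP

end Vale.Agent.P297.Z2
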