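import Vale.Agent.P297.H496.Z2.Kappa
import Vale.Agent.P297.H10.Z2.Const6
import Vale.Agent.P297.H860.Z2.SpecM

/-!
The direction in which the special member of the family of the two-sections is moved.
-/

set_option linter.unusedSectionVars false
set_option linter.unusedVariables false

open Polynomial

namespace Vale.Agent.P297.Z2

open Vale.Agent.P297 Vale.Agent.P297.Gen Vale.Agent.P297.H72 Vale.Agent.P297.H637
open Vale.Agent.P297.H160.Z2Irr Vale.Agent.P297.H581.Z2 Vale.Agent.P297.H927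
open Vale.Agent.P297.H860.Z2

section node

variable {k : Type} [Field k] [Algebra ℂ k] {P : Par}

/-- `kp ≠ kr` at every node. -/
theorem kp_ne_kr (h : NC P) {l al be : k} (hl : Transcendental ℂ l) (hn : IsNode P l al be) :
    (ntd P l al be).kp ≠ (ntd P l al be).kr := by
  have ht := root_tr h hl (tC_of_isNode hn)
  obtain ⟨e1, e2⟩ := be_of_isNode h hl hn
  have e3 := l_eq h ht (tC_of_isNode hn)
  have e4 : ndt P (al / be) = ntd P l al be := by
    unfold ndt
    rw [← e1, ← e2, ← e3]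
  rw [← e4]
  have := charZero_of_C k
  exact kp_ne h ht

end node

namespace FP

section sp

variable {N : Type} [Field N] [Algebra ℂ N] {P : Par} {D : FP N}
  {l al be y p0 p1 r0 r1 s0 s1 s2 h zs ss : N}

/-- At `Y = y` the special member lies over the line. -/
theorem Sp.hY_zero (S : D.Sp y p0 p1 r0 r1 s0 s1 s2 h)
    (L' : YLine P D.l y p0 p1 r0 r1 s0 s1 s2) {u : N} (hδ : D.dl u 1 ≠ 0) :
    D.hY P u 1 y = 0 := by
  have := charZero_of_C N
  have hz : D.dl u 1 * (h + D.ht u 1 / D.dl u 1) = h * D.dl u 1 + D.ht u 1 := by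
    field_simp
  generalize h + D.ht u 1 / D.dl u 1 = z at *
  have hht : D.ht u 1 = D.dl u 1 * (z - h) := by linear_combination -hz
  have e1 : D.pt u 1 + D.al * D.dl u 1 * y = D.dl u 1 * (p0 + p1 * z) := by
    unfold pt
    rw [hht, S.ps, S.k1]
    ring
  have e2 : D.rt u 1 - D.be * D.dl u 1 * y = D.dl u 1 * (r0 + r1 * z) := by
    unfold rt
    rw [hht, S.rs, S.k2]
    ring
  have e3 : D.S1 u 1 y = D.dl u 1 * ((s0 + s1 * z + s2 * z ^ 2) +
      ((p0 + p1 * z) ^ 2 - (r0 + r1 * z) ^ 2)) := by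
    have h3 := S.s2
    unfold S1 wt pt rt
    rw [hht, S.b1, S.c0, S.d, S.ps, S.rs, S.k1, S.k2]
    linear_combination (-(D.dl u 1 * (z - h) ^ 2)) * h3
  unfold hY
  rw [e1, e2, e3]
  have h4 := tCb_smul P D.l y (D.dl u 1) 1 (p0 + p1 * z) (r0 + r1 * z)
    ((s0 + s1 * z + s2 * z ^ 2) + ((p0 + p1 * z) ^ 2 - (r0 + r1 * z) ^ 2))
  rw [mul_one] at h4
  rw [h4, tCb_eq, H65.YLine_eval L' z]
  ring

/-- the special member of `H860` -/
theorem sp_spD (hs : s2 = -(p1 ^ 2 - r1 ^ 2)) :
    (spD P l al be y p0 p1 r0 r1 s0 s1 s2 zs ss).Sp y p0 p1 r0 r1 s0 s1 s2 zs where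
  ps := by
    change p0 + p1 * zs - al * y = p0 - al * y + p1 * zs
    ring
  rs := by
    change r0 + r1 * zs + be * y = r0 + be * y + r1 * zs
    ring
  k1 := rfl
  k2 := rfl
  b1 := rfl
  c0 := rfl
  d := rfl
  s2 := hs

end sp

section place

variable {N : Type} [Field N] [Algebra ℂ N] [IsAlgClosed N] {P : Par} {D : FP N}
  {y p0 p1 r0 r1 s0 s1 s2 h : N}

/-- the direction -/
def dw (D : FP N) (κ θ : N) : Fin 13 → N :=
  ![0, 0, 0, 2 * D.ss * κ, -(2 * D.ss * κ), 1, 0, 0, 0, 0, 0, θ, 0]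

/-- the difference quotients of the coordinates -/
def dy (N₁ : Type) [Field N₁] [Algebra N N₁] (D : FP N) (κ θ : N) (T : N₁) : Fin 13 → N₁ :=
  ![0, 0, 0, (2 * algebraMap N N₁ D.ss + T) * algebraMap N N₁ κ,
    -((2 * algebraMap N N₁ D.ss + T) * algebraMap N N₁ κ), 1, 0, 0, 0, 0, 0,
    algebraMap N N₁ θ, 0]

/-- **The direction**: the family moves to the first order off the special member at each of the
six zeros of `Δ`. -/
theorem Sp.dir6 (hP : NC P) (hi : AlgebraicIndependent ℂ ![D.l, y])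
    (S : D.Sp y p0 p1 r0 r1 s0 s1 s2 h) (L : YLine P D.l y p0 p1 r0 r1 s0 s1 s2)
    (huv : P.u ≠ P.v) (hb : D.Base P) (hss : D.ss ≠ 0) {ι : Type} [Finite ι] {β : ι → N}
    (hδ : ∀ j, D.dl (β j) 1 ≠ 0) :
    ∃ w : Fin 13 → N, ∀ (N₁ : Type) [Field N₁] [Algebra ℂ N₁] [Algebra N N₁]
      [IsScalarTower ℂ N N₁] (V : Plc N N₁) (T : N₁), V.Val T 0 → T ≠ 0 →
      ∃ c₁ y₁ : Fin 13 → N₁, (∀ i, c₁ i = algebraMap N N₁ (D.vec i) + T * y₁ i) ∧
        (∀ i, V.Val (y₁ i) (w i)) ∧ (of c₁).Base P ∧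
        ∀ j, ∃ k ≠ 0, V.Val ((of c₁).hY P (algebraMap N N₁ (β j)) 1 (algebraMap N N₁ y) / T) k := by
  have hl : Transcendental ℂ D.l := hi.transcendental 0
  have h4 : (4 : N) * ((ntd P D.l D.al D.be).kp - (ntd P D.l D.al D.be).kr) ≠ 0 := by
    have := charZero_of_C N
    exact mul_ne_zero (by norm_num) (sub_ne_zero.2 (kp_ne_kr hP hl hb.node))
  obtain ⟨κ, hκ⟩ : ∃ κ, 4 * ((ntd P D.l D.al D.be).kp - (ntd P D.l D.al D.be).kr) * κ = 1 :=
    ⟨_, mul_inv_cancel₀ h4⟩
  have hκ0 : κ ≠ 0 := by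
    rintro rfl
    rw [mul_zero] at hκ
    exact zero_ne_one hκ
  obtain ⟨θ, hθ⟩ := S.exists_dir hP.P0 hP.P2 hP.Q huv hi L hκ0 hss β hδ
  refine ⟨D.dw κ θ, fun N₁ _ _ _ _ V T hT hT0 => ?_⟩
  have h2 : V.Val (2 : N₁) (2 : N) := by
    have h := V.val_const (2 : N)
    rwa [map_ofNat] at h
  have v0 : V.Val (0 : N₁) (0 : N) := V.val_zero
  have v1 : V.Val ((2 * algebraMap N N₁ D.ss + T) * algebraMap N N₁ κ) (2 * D.ss * κ) := by
    have h3 := ((h2.mul (V.val_const D.ss)).add hT).mul (V.val_const κ)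
    rwa [add_zero] at h3
  refine ⟨((D.map (algebraMap N N₁)).mv (algebraMap N N₁ κ) T (algebraMap N N₁ θ)).vec,
    D.dy N₁ κ θ T, ?_, ?_, ?_, ?_⟩
  · intro i
    fin_cases i
    · exact (by ring : algebraMap N N₁ D.l = algebraMap N N₁ D.l + T * 0)
    · exact (by ring : algebraMap N N₁ D.al = algebraMap N N₁ D.al + T * 0)
    · exact (by ring : algebraMap N N₁ D.be = algebraMap N N₁ D.be + T * 0)
    · exact (by ring : algebraMap N N₁ D.ps + (2 * algebraMap N N₁ D.ss * T + T ^ 2) *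
        algebraMap N N₁ κ = algebraMap N N₁ D.ps + T * ((2 * algebraMap N N₁ D.ss + T) *
          algebraMap N N₁ κ))
    · exact (by ring : algebraMap N N₁ D.rs - (2 * algebraMap N N₁ D.ss * T + T ^ 2) *
        algebraMap N N₁ κ = algebraMap N N₁ D.rs + T * -((2 * algebraMap N N₁ D.ss + T) *
          algebraMap N N₁ κ))
    · exact (by ring : algebraMap N N₁ D.ss + T = algebraMap N N₁ D.ss + T * 1)
    · exact (by ring : algebraMap N N₁ D.k1 = algebraMap N N₁ D.k1 + T * 0)
    · exact (by ring : algebraMap N N₁ D.k2 = algebraMap N N₁ D.k2 + T * 0)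
    · exact (by ring : algebraMap N N₁ D.a = algebraMap N N₁ D.a + T * 0)
    · exact (by ring : algebraMap N N₁ D.b = algebraMap N N₁ D.b + T * 0)
    · exact (by ring : algebraMap N N₁ D.b1 = algebraMap N N₁ D.b1 + T * 0)
    · exact (by ring : algebraMap N N₁ D.c0 + algebraMap N N₁ θ * T =
        algebraMap N N₁ D.c0 + T * algebraMap N N₁ θ)
    · exact (by ring : algebraMap N N₁ D.d = algebraMap N N₁ D.d + T * 0)
  · intro i
    fin_cases i
    · exact v0
    · exact v0
    · exact v0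
    · exact v1
    · exact v1.neg
    · exact V.val_one
    · exact v0
    · exact v0
    · exact v0
    · exact v0
    · exact v0
    · exact V.val_const θ
    · exact v0
  · rw [of_vec]
    have hm : (ntd P D.l D.al D.be).map (IsScalarTower.toAlgHom ℂ N N₁ : N →ₐ[ℂ] N₁) =
        ntd P (algebraMap N N₁ D.l) (algebraMap N N₁ D.al) (algebraMap N N₁ D.be) :=
      map_ntd (IsScalarTower.toAlgHom ℂ N N₁) P D.l D.al D.be
    have hc : ∀ z : ℂ, algebraMap ℂ N₁ z = algebraMap N N₁ (algebraMap ℂ N z) := fun z =>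
      IsScalarTower.algebraMap_apply ℂ N N₁ z
    have hB : (D.map (algebraMap N N₁)).Base P := by
      refine ⟨⟨?_, ?_, ?_, ?_⟩, ?_, ?_, ?_⟩
      · exact (_root_.map_ne_zero _).2 hb.node.al0
      · exact (_root_.map_ne_zero _).2 hb.node.be0
      · have h1 := congrArg (algebraMap N N₁) hb.node.sub
        simp only [map_sub, map_one] at h1
        exact h1
      · have h1 := congrArg (algebraMap N N₁) hb.node.cub
        simp only [map_sub, map_add, map_mul, map_pow, ← hc] at h1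
        exact h1
      · have h1 := congrArg (algebraMap N N₁) hb.hs
        change algebraMap N N₁ D.ss ^ 2 =
          (ntd P (algebraMap N N₁ D.l) (algebraMap N N₁ D.al) (algebraMap N N₁ D.be)).B2
            (algebraMap N N₁ D.ps) (algebraMap N N₁ D.rs)
        rw [← hm]
        rw [map_pow] at h1
        rw [h1]
        simp only [TD.B2, TD.W, TD.map, map_add, map_sub, map_mul, map_pow, map_ofNat,
          IsScalarTower.coe_toAlgHom']
      · have h1 := congrArg (algebraMap N N₁) hb.ha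
        change algebraMap N N₁ D.a = 2 * algebraMap N N₁ D.l ^ 2 * (algebraMap N N₁ D.ps -
          (ntd P (algebraMap N N₁ D.l) (algebraMap N N₁ D.al) (algebraMap N N₁ D.be)).pn +
          (algebraMap N N₁ D.rs -
          (ntd P (algebraMap N N₁ D.l) (algebraMap N N₁ D.al) (algebraMap N N₁ D.be)).rn)) *
          (algebraMap N N₁ D.k1 + algebraMap N N₁ D.k2) +
          8 * algebraMap N N₁ D.al * algebraMap N N₁ D.be *
            (algebraMap N N₁ D.ps + algebraMap N N₁ D.rs) *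
            (algebraMap N N₁ D.k1 + algebraMap N N₁ D.k2) +
          4 * (ntd P (algebraMap N N₁ D.l) (algebraMap N N₁ D.al) (algebraMap N N₁ D.be)).kp *
            algebraMap N N₁ D.k1 +
          4 * (ntd P (algebraMap N N₁ D.l) (algebraMap N N₁ D.al) (algebraMap N N₁ D.be)).kr *
            algebraMap N N₁ D.k2
        rw [← hm, h1]
        simp only [TD.map, map_add, map_sub, map_mul, map_pow, map_ofNat,
          IsScalarTower.coe_toAlgHom']
      · have h1 := congrArg (algebraMap N N₁) hb.hb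
        simp only [map_add, map_mul, map_pow, map_ofNat] at h1
        exact h1
    refine hB.mv ?_ T (algebraMap N N₁ θ)
    have h1 := congrArg (algebraMap N N₁) hκ
    change 4 * ((ntd P (algebraMap N N₁ D.l) (algebraMap N N₁ D.al) (algebraMap N N₁ D.be)).kp -
      (ntd P (algebraMap N N₁ D.l) (algebraMap N N₁ D.al) (algebraMap N N₁ D.be)).kr) *
        algebraMap N N₁ κ = 1
    rw [← hm]
    simp only [map_mul, map_sub, map_one, map_ofNat] at h1
    exact h1
  · intro j
    refine ⟨D.hK P κ 0 θ (β j) 1 y, hθ j, ?_⟩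
    rw [of_vec, hY_mv]
    have h3 := map_hY P D (IsScalarTower.toAlgHom ℂ N N₁) (β j) 1 y
    rw [S.hY_zero L (hδ j), map_zero, map_one] at h3
    have h5 : (D.map (algebraMap N N₁)).hY P (algebraMap N N₁ (β j)) 1 (algebraMap N N₁ y) = 0 :=
      h3.symm
    rw [h5, zero_add, mul_div_cancel_left₀ _ hT0]
    let A := VSub V
    let DS : FP A := D.map fun x => ⟨(algebraMap N N₁ x, x), V.val_const x⟩
    let cs : N → A := fun x => ⟨(algebraMap N N₁ x, x), V.val_const x⟩
    let TS : A := ⟨(T, 0), hT⟩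
    let f1 : A →ₐ[ℂ] N₁ := (AlgHom.fst ℂ N₁ N).comp A.val
    let f2 : A →ₐ[ℂ] N := (AlgHom.snd ℂ N₁ N).comp A.val
    have hpr : ∀ z : A, V.Val (f1 z) (f2 z) := fun z => z.2
    have e1 : DS.map f1 = D.map (algebraMap N N₁) := rfl
    have e2 : DS.map f2 = D := rfl
    have c1 : ∀ x, f1 (cs x) = algebraMap N N₁ x := fun _ => rfl
    have c2 : ∀ x, f2 (cs x) = x := fun _ => rfl
    have t1 : f1 TS = T := rfl
    have t2 : f2 TS = 0 := rfl
    have h6 := hpr (DS.hK P (cs κ) TS (cs θ) (cs (β j)) 1 (cs y))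
    rw [map_hK, map_hK, e1, e2, c1, c1, c1, c1, c2, c2, c2, c2, t1, t2, map_one, map_one] at h6
    exact h6

end place

end FP

end Vale.Agent.P297.Z2
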